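import Vale.Agent.P084.Ultra

namespace Vale.Agent.Results.P084.Tingley

open Vale.Agent.P084

theorem result {X Y : Type*} [NormedAddCommGroup X] [NormedSpace ℝ X] [Nontrivial X]
    [NormedAddCommGroup Y] [NormedSpace ℝ Y]
    (f : Metric.sphere (0 : X) 1 → Metric.sphere (0 : Y) 1)
    (hf : ∀ x y : Metric.sphere (0 : X) 1, ‖(f x : Y) - (f y : Y)‖ = ‖(x : X) - (y : X)‖)
    (hs : Function.Surjective f) :
    ∃ T : X ≃ₗᵢ[ℝ] Y, ∀ x : Metric.sphere (0 : X) 1, T (x : X) = (f x : Y) := by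
  classical
  obtain ⟨x₀, hx₀⟩ := exists_norm_eq X (zero_le_one' ℝ)
  let F : X → Y := fun x => if h : ‖x‖ = 1 then (f ⟨x, mem_sphere_zero_iff_norm.2 h⟩ : Y) else 0
  have hF : ∀ x (h : ‖x‖ = 1), F x = f ⟨x, mem_sphere_zero_iff_norm.2 h⟩ := fun x h => dif_pos h
  have hg : ∀ w : Y, ∃ x : X, ‖w‖ = 1 → ‖x‖ = 1 ∧ F x = w := by
    intro w
    by_cases hw : ‖w‖ = 1
    · obtain ⟨x, hx⟩ := hs ⟨w, mem_sphere_zero_iff_norm.2 hw⟩
      refine ⟨x, fun _ => ⟨mem_sphere_zero_iff_norm.1 x.2, ?_⟩⟩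
      rw [hF _ (mem_sphere_zero_iff_norm.1 x.2)]
      exact congrArg Subtype.val hx
    · exact ⟨0, fun h => absurd h hw⟩
  choose g hg using hg
  have I : Iso F g := by
    refine ⟨fun x hx => ?_, fun x z hx hz => ?_, fun w hw => (hg w hw).1, fun w hw => ?_⟩
    · rw [hF x hx]; exact mem_sphere_zero_iff_norm.1 (f _).2
    · rw [hF x hx, hF z hz, hf]
    · rw [(hg w hw).2, sub_self, norm_zero]
  have hnz : ∀ x : X, ‖x‖ • nz x₀ x = x := by
    intro x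
    unfold nz
    split_ifs with h
    · rw [h, zero_smul, norm_eq_zero.1 h]
    · rw [smul_smul, mul_inv_cancel₀ h, one_smul]
  let G : X → Y := fun x => ‖x‖ • F (nz x₀ x)
  have hG : Isometry G := Isometry.of_dist_eq fun x y => by
    rw [dist_eq_norm, dist_eq_norm, I.scaled _ _ (nz_norm hx₀ x) (nz_norm hx₀ y) (norm_nonneg x)
      (norm_nonneg y), hnz, hnz]
  have hG0 : G 0 = 0 := by simp [G]
  have hGs : Function.Surjective G := by
    intro w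
    by_cases hw : w = 0
    · exact ⟨0, by rw [hG0, hw]⟩
    have hw' : 0 < ‖w‖ := norm_pos_iff.2 hw
    have hu : ‖‖w‖⁻¹ • w‖ = 1 := by rw [norm_smul, norm_inv, norm_norm, inv_mul_cancel₀ hw'.ne']
    obtain ⟨h1, h2⟩ := hg _ hu
    have hn : ‖‖w‖ • g (‖w‖⁻¹ • w)‖ = ‖w‖ := by rw [norm_smul, h1, norm_norm, mul_one]
    refine ⟨‖w‖ • g (‖w‖⁻¹ • w), ?_⟩
    have e : nz x₀ (‖w‖ • g (‖w‖⁻¹ • w)) = g (‖w‖⁻¹ • w) := by
      rw [nz, hn, if_neg hw'.ne', smul_smul, inv_mul_cancel₀ hw'.ne', one_smul]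
    simp only [G]
    rw [e, hn, h2, smul_smul, mul_inv_cancel₀ hw'.ne', one_smul]
  let E : X ≃ᵢ Y := ⟨Equiv.ofBijective G ⟨hG.injective, hGs⟩, hG⟩
  refine ⟨E.toRealLinearIsometryEquivOfMapZero hG0, fun x => ?_⟩
  have hx := mem_sphere_zero_iff_norm.1 x.2
  show ‖(x : X)‖ • F (nz x₀ x) = _
  rw [nz_unit _ hx, hx, one_smul, hF _ hx]

end Vale.Agent.Results.P084.Tingley
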